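import Vale.Agent.P136.Main

open MeasureTheory Set

namespace Vale.Agent.Results.P136.ConstantShearUnique

open Vale.Agent.P136

theorem result : ∀ Ω : Set (Fin 3 → ℝ), IsOpen Ω → Bornology.IsBounded Ω → IsConnected Ω →
    ∀ (μ0 : ℝ) (l₁ l₂ m₂ : (Fin 3 → ℝ) → ℝ),
      Admissible Ω l₁ (fun _ => μ0) → Admissible Ω l₂ m₂ → ContDiffOn ℝ 1 m₂ Ω →
      SameData Ω l₁ (fun _ => μ0) l₂ m₂ →
      ((∫ x in Ω, m₂ x ≤ ∫ _ in Ω, μ0) ∨ (∫ x in Ω, 1 / m₂ x ≤ ∫ _ in Ω, 1 / μ0)) →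
      ∀ x ∈ closure Ω, m₂ x = μ0 ∧ l₂ x = l₁ x :=
  fun _ ho hb hc _ _ _ _ ha₁ ha₂ hd hS hmean => unique_of_mean ho hb hc ha₁ ha₂ hd hS hmean

end Vale.Agent.Results.P136.ConstantShearUnique
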